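import Crest.Statements.S0179
import Crest.Agent.Crouzeix.Assemble
import Crest.Agent.Crouzeix.Approx
import Crest.Agent.Crouzeix.NumRange

set_option autoImplicit false
open Crest Crest.AnalysisR

namespace Crest.Agent.S0179

open Crest.Agent.Crouzeix in
/-- Finite dimensional version, with `M` bounding on the numerical range. -/
theorem finiteDim {F : Type*} [NormedAddCommGroup F] [InnerProductSpace ℂ F] [FiniteDimensional ℂ F]
    (A : F →L[ℂ] F) (m d : ℕ) (B : Fin (d + 1) → Matrix (Fin m) (Fin m) ℂ) (M : ℝ) (u₀ : F) (hu₀ : ‖u₀‖ = 1)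
    (hM : ∀ z ∈ numRangeSet A, ‖Matrix.toEuclideanCLM (n := Fin m) (𝕜 := ℂ)
          (∑ k : Fin (d + 1), z ^ (k : ℕ) • B k)‖ ≤ M)
    (v : PiLp 2 (fun _ : Fin m => F)) :
    ‖(WithLp.toLp 2 (fun i : Fin m => ∑ j : Fin m, ∑ k : Fin (d + 1), B k i j • (A ^ (k : ℕ)) (v j))
        : PiLp 2 (fun _ : Fin m => F))‖ ≤ 2 * M * ‖v‖ := by
  have hcomp : IsCompact (numRangeSet A) := isCompact_numRangeSet A
  have hconv : Convex ℝ (numRangeSet A) := convex_numRangeSet A
  have hne : (numRangeSet A).Nonempty := ⟨_, u₀, hu₀, rfl⟩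
  -- the norm of the polynomial is continuous in `z`
  let f : ℂ → ℝ := fun z => ‖Matrix.toEuclideanCLM (n := Fin m) (𝕜 := ℂ)
          (∑ k : Fin (d + 1), z ^ (k : ℕ) • B k)‖
  have hf : Continuous f := by
    have h1 : Continuous fun z : ℂ => ∑ k : Fin (d + 1), z ^ (k : ℕ) • B k := by
      refine continuous_finsetSum _ fun k _ => ?_
      exact (continuous_pow _).smul continuous_const
    have h2 : Continuous (Matrix.toEuclideanCLM (n := Fin m) (𝕜 := ℂ)) :=
      (LinearMap.continuous_of_finiteDimensional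
        (Matrix.toEuclideanCLM (n := Fin m) (𝕜 := ℂ)).toAlgEquiv.toLinearMap)
    exact (h2.comp h1).norm
  refine le_of_forall_pos_le_add fun ε hε => ?_
  have hv0 : 0 ≤ ‖v‖ := norm_nonneg _
  -- choose `M' = M + η`
  set η : ℝ := ε / (2 * (‖v‖ + 1)) with hη
  have hηpos : 0 < η := by positivity
  have hopen : IsOpen {z | f z < M + η} := isOpen_lt hf continuous_const
  have hsub : numRangeSet A ⊆ {z | f z < M + η} := fun z hz => by
    have := hM z hz
    show f z < M + η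
    simp only [f]
    linarith
  obtain ⟨δ, hδ, hthick⟩ := hcomp.exists_thickening_subset_open hopen hsub
  obtain ⟨C, hC1, hC2⟩ := exists_curve_near hcomp hconv hne (half_pos hδ)
  have hbound : ∀ β, ‖Matrix.toEuclideanCLM (n := Fin m) (𝕜 := ℂ)
      (∑ k : Fin (d + 1), C.σ β ^ (k : ℕ) • B k)‖ ≤ M + η := by
    intro β
    obtain ⟨w, hw, hwβ⟩ := hC2 β
    have : C.σ β ∈ Metric.thickening δ (numRangeSet A) := by
      rw [Metric.mem_thickening_iff]
      refine ⟨w, hw, ?_⟩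
      rw [dist_eq_norm]
      linarith
    exact (hthick this).le
  have hin : InsideCurve A C := fun u hu => hC1 ⟨u, hu, rfl⟩
  have := crouzeix_of_curve A C hin u₀ hu₀ B (M + η) hbound v
  refine this.trans ?_
  have h3 : 2 * (M + η) * ‖v‖ = 2 * M * ‖v‖ + 2 * η * ‖v‖ := by ring
  have h4 : 2 * η * ‖v‖ ≤ ε := by
    rw [hη]
    have : 2 * (ε / (2 * (‖v‖ + 1))) * ‖v‖ = ε * (‖v‖ / (‖v‖ + 1)) := by
      field_simp
    rw [this]
    have h5 : ‖v‖ / (‖v‖ + 1) ≤ 1 := by
      rw [div_le_one (by positivity)]; linarith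
    nlinarith
  linarith

/-- Let A be a bounded operator on a complex Hilbert space H, m ≥ 0, and P(z) = ∑_{k ≤ d} z^k B_k a polynomial with m × m complex matrix coefficients. Suppose M bounds the operator norm (on Euclidean ℂ^m) of P(z) for every z in the numerical range {⟨x, A x⟩ : ‖x‖ = 1}. Then the operator P[A] = ∑_k A^k ⊗ B_k on H ⊗ ℂ^m, written in coordinates as (v_j)_{j<m} ↦ (∑_j ∑_k (B_k)_{ij} A^k v_j)_{i<m} with the ℓ²-norm of the component norms, satisfies ‖P[A] v‖ ≤ 2 M ‖v‖ for every v. -/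
theorem result
    {H : Type*} [NormedAddCommGroup H] [InnerProductSpace ℂ H] [CompleteSpace H]
    (A : H →L[ℂ] H) (m d : ℕ) (B : Fin (d + 1) → Matrix (Fin m) (Fin m) ℂ) (M : ℝ)
    (hM : ∀ x : H, ‖x‖ = 1 →
      ‖Matrix.toEuclideanCLM (n := Fin m) (𝕜 := ℂ)
          (∑ k : Fin (d + 1), (inner ℂ x (A x)) ^ (k : ℕ) • B k)‖ ≤ M)
    (v : PiLp 2 (fun _ : Fin m => H)) :
    ‖(WithLp.toLp 2 (fun i : Fin m => ∑ j : Fin m, ∑ k : Fin (d + 1), B k i j • (A ^ (k : ℕ)) (v j))
        : PiLp 2 (fun _ : Fin m => H))‖ ≤ 2 * M * ‖v‖ := by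
  classical
  obtain ⟨F, hF, A', v', hsub, hv, hk⟩ := Crest.Agent.Crouzeix.exists_compression A (m := m) d (fun j => v j)
  have := hF
  -- norms on `PiLp 2` only depend on the norms of the components
  have hnorm : ∀ (w : PiLp 2 (fun _ : Fin m => F)) (u : PiLp 2 (fun _ : Fin m => H)),
      (∀ i, (w i : H) = u i) → ‖w‖ = ‖u‖ := by
    intro w u h
    have h1 : ‖w‖ ^ 2 = ‖u‖ ^ 2 := by
      rw [PiLp.norm_sq_eq_of_L2, PiLp.norm_sq_eq_of_L2]
      refine Finset.sum_congr rfl fun i _ => ?_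
      rw [← h i]
      rfl
    exact (pow_left_inj₀ (norm_nonneg _) (norm_nonneg _) two_ne_zero).1 h1
  set V' : PiLp 2 (fun _ : Fin m => F) := WithLp.toLp 2 v' with hV'
  have hVV : ‖V'‖ = ‖v‖ := hnorm V' v (fun i => hv i)
  have hLHS : ‖(WithLp.toLp 2 (fun i : Fin m => ∑ j : Fin m, ∑ k : Fin (d + 1), B k i j • (A' ^ (k : ℕ)) (V' j))
        : PiLp 2 (fun _ : Fin m => F))‖ =
      ‖(WithLp.toLp 2 (fun i : Fin m => ∑ j : Fin m, ∑ k : Fin (d + 1), B k i j • (A ^ (k : ℕ)) (v j))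
        : PiLp 2 (fun _ : Fin m => H))‖ := by
    apply hnorm
    intro i
    simp only [PiLp.toLp_apply]
    rw [Submodule.coe_sum]
    refine Finset.sum_congr rfl fun j _ => ?_
    rw [Submodule.coe_sum]
    refine Finset.sum_congr rfl fun k _ => ?_
    rw [Submodule.coe_smul]
    congr 1
    exact hk j k (Nat.lt_succ_iff.mp k.2)
  rw [← hLHS, ← hVV]
  by_cases hunit : ∃ u₀ : F, ‖u₀‖ = 1
  · obtain ⟨u₀, hu₀⟩ := hunit
    refine finiteDim A' m d B M u₀ hu₀ ?_ V'
    intro z hz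
    obtain ⟨x, hx, rfl⟩ := hsub hz
    exact hM x hx
  · -- `F` is trivial
    have hzero : ∀ u : F, u = 0 := by
      intro u
      by_contra hu
      apply hunit
      refine ⟨((‖u‖⁻¹ : ℝ) : ℂ) • u, ?_⟩
      have : ‖u‖ ≠ 0 := norm_ne_zero_iff.2 hu
      rw [norm_smul, Complex.norm_real, norm_inv, norm_norm, inv_mul_cancel₀ this]
    have hs : ∀ w : PiLp 2 (fun _ : Fin m => F), w = 0 := by
      intro w
      ext i
      simp only [PiLp.zero_apply]
      rw [hzero (w i)]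
    rw [hs (WithLp.toLp 2 (fun i : Fin m => ∑ j : Fin m, ∑ k : Fin (d + 1), B k i j • (A' ^ (k : ℕ)) (V' j))
        : PiLp 2 (fun _ : Fin m => F)), hs V']
    simp

end Crest.Agent.S0179
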