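-- Statement S0181 (row of S0179): the Poisson density of the optimal metric.
import Crest.Statements.S0181
import Crest.Agent.CrouzeixPoisson.Main

set_option autoImplicit false
open scoped ComplexOrder
open Crest.AnalysisR.NumRange
open Crest Crest.AnalysisR Crest.AnalysisR.NumRange

namespace Crest.Agent.S0181

open Crest.Agent.CrouzeixPoisson Complex Filter Topology Set Metric Matrix
open scoped ComplexConjugate Real Kronecker

/-- Setting of the optimal-metric statement; also G is holomorphic and injective on {t : r < ‖t‖} for some r < 1 with G({t : 1 < ‖t‖}) the complement of the closure of Ω, (H, κ²) is an optimal metric pair for f(A), and S ≽ 0 with S² = H. Then one continuous 2π-periodic positive semidefinite density Λ of mean I gives, for all m ≥ 1 and m × m matrix-valued v holomorphic near the closure of Ω, v[SAS⁻¹] = (1/2π) ∫ Λ(θ) ⊗ v(G(e^{iθ})) dθ entrywise, and ‖v[A]‖ ≤ κ sup ‖v‖ over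 the closure of Ω. -/
theorem result
    (n : ℕ) (hn : 1 ≤ n) (A : Matrix (Fin n) (Fin n) ℂ)
    (Ω U : Set ℂ) (hΩ₁ : IsOpen Ω) (hΩ₂ : Bornology.IsBounded Ω) (hΩ₃ : Convex ℝ Ω)
    (hU : IsOpen U) (hΩU : closure Ω ⊆ U)
    (f : ℂ → ℂ) (hf₁ : DifferentiableOn ℂ f U) (hf₂ : Set.InjOn f U)
    (hf₃ : f '' Ω = Metric.ball 0 1)
    (G : ℂ → ℂ) (r : ℝ) (hr₁ : 0 < r) (hr₂ : r < 1)
    (hG₁ : DifferentiableOn ℂ G {t : ℂ | r < ‖t‖}) (hG₂ : Set.InjOn G {t : ℂ | r < ‖t‖})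
    (hG₃ : G '' {t : ℂ | 1 < ‖t‖} = (closure Ω)ᶜ)
    (hA : numRange A ⊆ Ω) (p : Polynomial ℂ) (hp : AgreesOnSpectrum A f p)
    (H : Matrix (Fin n) (Fin n) ℂ) (κsq : ℝ) (hH : IsOptimalMetric (Polynomial.aeval A p) H κsq)
    (S : Matrix (Fin n) (Fin n) ℂ) (hS₁ : S.PosSemidef) (hS₂ : S * S = H) :
    ∃ Λ : ℝ → Matrix (Fin n) (Fin n) ℂ, Continuous Λ ∧ Function.Periodic Λ (2 * Real.pi) ∧
      (∀ θ, (Λ θ).PosSemidef) ∧
      (∀ a b, (2 * Real.pi : ℂ)⁻¹ * (∫ θ in (0 : ℝ)..2 * Real.pi, Λ θ a b)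
        = (1 : Matrix (Fin n) (Fin n) ℂ) a b) ∧
      ∀ (m : ℕ), 1 ≤ m → ∀ (V : Set ℂ), IsOpen V → closure Ω ⊆ V →
        ∀ v : ℂ → Matrix (Fin m) (Fin m) ℂ, (∀ c d, DifferentiableOn ℂ (fun z => v z c d) V) →
        ∀ q : Fin m → Fin m → Polynomial ℂ,
          (∀ c d, AgreesOnSpectrum A (fun z => v z c d) (q c d)) →
          (∀ a b c d, Polynomial.aeval (S * A * S⁻¹) (q c d) a b =
              (2 * Real.pi : ℂ)⁻¹ * (∫ θ in (0 : ℝ)..2 * Real.pi,
                Λ θ a b * v (G (Complex.exp ((θ : ℂ) * Complex.I))) c d)) ∧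
          ∀ M : ℝ, (∀ z ∈ closure Ω, ‖Matrix.toEuclideanCLM (n := Fin m) (𝕜 := ℂ) (v z)‖ ≤ M) →
            ‖Matrix.toEuclideanCLM (n := Fin n × Fin m) (𝕜 := ℂ)
                (Matrix.of fun (i : Fin n × Fin m) (j : Fin n × Fin m) =>
                  Polynomial.aeval A (q i.2 j.2) i.1 j.1)‖ ≤ Real.sqrt κsq * M := by
  classical
  have hpi := Real.pi_pos
  obtain ⟨⟨hH1, hH2, hH3⟩, -⟩ := hH
  set T := Polynomial.aeval A p with hT
  have hSh : Sᴴ = S := hS₁.isHermitian.eq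
  -- the two quadratic bounds
  have hSq : ∀ z : Fin n → ℂ, star z ⬝ᵥ (H *ᵥ z) = (nsq (S *ᵥ z) : ℂ) := by
    intro z
    rw [← hS₂, ← mulVec_mulVec, ← star_dot_self]
    conv_rhs => rw [star_mulVec, hSh]
    rw [dotProduct_mulVec]
  have hlow : ∀ z : Fin n → ℂ, nsq z ≤ nsq (S *ᵥ z) := by
    intro z
    have h1 := hH1.dotProduct_mulVec_nonneg z
    rw [sub_mulVec, dotProduct_sub, hSq, one_mulVec, star_dot_self] at h1
    have h2 : ((nsq (S *ᵥ z) - nsq z : ℝ) : ℂ) = (nsq (S *ᵥ z) : ℂ) - (nsq z : ℂ) := by push_cast; rfl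
    rw [← h2] at h1
    have h3 := Complex.zero_le_real.1 h1
    linarith
  have hup : ∀ z : Fin n → ℂ, nsq (S *ᵥ z) ≤ κsq * nsq z := by
    intro z
    have h1 := hH2.dotProduct_mulVec_nonneg z
    rw [sub_mulVec, dotProduct_sub, hSq, smul_mulVec, one_mulVec, dotProduct_smul, star_dot_self,
      smul_eq_mul] at h1
    have h2 : ((κsq * nsq z - nsq (S *ᵥ z) : ℝ) : ℂ) = (κsq : ℂ) * (nsq z : ℂ) - (nsq (S *ᵥ z) : ℂ) := by
      push_cast; rfl
    rw [← h2] at h1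
    have h3 := Complex.zero_le_real.1 h1
    linarith
  have hκ : 0 ≤ κsq := by
    have hz : nsq (Pi.single (⟨0, hn⟩ : Fin n) (1 : ℂ)) = 1 := by
      unfold nsq
      rw [Finset.sum_eq_single (⟨0, hn⟩ : Fin n)]
      · simp
      · intro b _ hb
        simp [hb]
      · simp
    have h1 := hlow (Pi.single (⟨0, hn⟩ : Fin n) (1 : ℂ))
    have h2 := hup (Pi.single (⟨0, hn⟩ : Fin n) (1 : ℂ))
    rw [hz] at h1 h2
    linarith
  -- invertibility
  have hdet : S.det ≠ 0 := by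
    intro h0
    obtain ⟨v, hv, hSv⟩ := Matrix.exists_mulVec_eq_zero_iff.2 h0
    have h1 := hlow v
    rw [hSv] at h1
    have h2 : nsq (0 : Fin n → ℂ) = 0 := by simp [nsq]
    rw [h2] at h1
    apply hv
    funext i
    have h3 : ‖v i‖ ^ 2 ≤ nsq v :=
      Finset.single_le_sum (f := fun i => ‖v i‖ ^ 2) (fun _ _ => by positivity) (Finset.mem_univ i)
    have h4 : ‖v i‖ ^ 2 ≤ 0 := h3.trans h1
    have h5 : ‖v i‖ = 0 := by nlinarith [norm_nonneg (v i)]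
    simpa using h5
  have hunit : IsUnit S.det := isUnit_iff_ne_zero.2 hdet
  set Si := S⁻¹ with hSi
  have hSi1 : Si * S = 1 := Matrix.nonsing_inv_mul S hunit
  have hSi2 : S * Si = 1 := Matrix.mul_nonsing_inv S hunit
  have hSih : Siᴴ = Si := by
    rw [hSi, Matrix.conjTranspose_nonsing_inv, hSh]
  -- the conjugated matrix
  set At := S * A * Si with hAt
  have hspec : spectrum ℂ At = spectrum ℂ A := by
    let u : (Matrix (Fin n) (Fin n) ℂ)ˣ := ⟨S, Si, hSi2, hSi1⟩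
    exact spectrum.units_conjugate (a := A) (u := u)
  set Tt := Polynomial.aeval At p with hTt
  have hTtT : Tt = S * T * Si := aeval_conj S Si A hSi1 hSi2 p
  have hμΩ : ∀ μ ∈ spectrum ℂ A, μ ∈ Ω := fun μ hμ => hA (spectrum_subset_numRange A hμ)
  have hfμ : ∀ μ ∈ spectrum ℂ A, ‖f μ‖ < 1 := by
    intro μ hμ
    have h1 : f μ ∈ f '' Ω := mem_image_of_mem f (hμΩ μ hμ)
    rw [hf₃] at h1
    simpa using h1
  have hμU : ∀ μ ∈ spectrum ℂ A, μ ∈ U := fun μ hμ => hΩU (subset_closure (hμΩ μ hμ))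
  have hpt : AgreesOnSpectrum At f p := by
    intro μ hμ
    rw [hspec] at hμ
    exact hp μ hμ
  have : Nonempty (Fin n) := ⟨⟨0, hn⟩⟩
  have hTtspec : ∀ μ ∈ spectrum ℂ Tt, ‖μ‖ < 1 := by
    intro μ hμ
    have hne : (spectrum ℂ At).Nonempty := spectrum.nonempty_of_isAlgClosed_of_finiteDimensional ℂ At
    rw [hTt, spectrum.map_polynomial_aeval_of_nonempty At p hne] at hμ
    obtain ⟨ν, hν, rfl⟩ := hμ
    have hν' := hν
    rw [hspec] at hν'
    have h0 := hp ν hν' 0 (by omega)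
    simp only [iteratedDeriv_zero] at h0
    simp only
    rw [h0]
    exact hfμ ν hν'
  have hs : Summable (powB Tt) := summable_powB_of_spectrum hn Tt hTtspec
  have hc : (1 - Ttᴴ * Tt).PosSemidef := by
    rw [hTtT]
    refine contraction_of_metric hSi1 hSi2 hSh hSih ?_
    rw [hS₂]
    exact hH3
  have hspecΩ : ∀ μ ∈ spectrum ℂ At, μ ∈ Ω := fun μ hμ => hμΩ μ (hspec ▸ hμ)
  have hagree : ∀ (v0 : ℂ → ℂ) (q0 : Polynomial ℂ), AgreesOnSpectrum A v0 q0 →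
      AgreesOnSpectrum At v0 q0 := fun v0 q0 h μ hμ => h μ (hspec ▸ hμ)
  have hΛc := continuous_lamD (Tt := Tt) hs hΩ₁ hU hΩU hf₁ hf₂ hf₃ hG₁ hG₂ hr₂ hG₃
  have hΛp := posSemidef_lamD hs hc hΩ₁ hU hΩU hf₁ hf₂ hf₃ hG₁ hG₂ hr₂ hG₃
  have hΛm := mean_lamD (Tt := Tt) hs hΩ₁ hU hΩU hf₁ hf₂ hf₃ hG₁ hG₂ hr₂ hG₃
  refine ⟨lamD Tt f G, hΛc, periodic_lamD, hΛp, hΛm, ?_⟩
  intro m hm V hV hΩV v hv q hq
  have hform : ∀ a b c d, Polynomial.aeval At (q c d) a b =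
      (2 * Real.pi : ℂ)⁻¹ * (∫ θ in (0 : ℝ)..2 * Real.pi,
        lamD Tt f G θ a b * v (G (eI θ)) c d) := by
    intro a b c d
    exact poisson_formula (v0 := fun z => v z c d) hs hΩ₁ hΩ₂ hU hΩU hf₁ hf₂ hf₃ hG₁ hG₂ hr₂ hG₃
      hspecΩ hV hΩV (hv c d) hpt (hagree _ _ (hq c d)) a b
  refine ⟨hform, ?_⟩
  intro M hM
  have hg : Continuous fun θ => G (eI θ) := continuous_curve hG₁ hr₂
  have hgmem : ∀ θ, G (eI θ) ∈ closure Ω := curve_mem_closure hG₂ hr₂ hG₃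
  have hVc : Continuous fun θ => v (G (eI θ)) := by
    refine continuous_matrix fun c d => ?_
    exact (hv c d).continuousOn.comp_continuous hg fun θ => hΩV (hgmem θ)
  have hM0 : 0 ≤ M := (norm_nonneg _).trans (hM _ (hgmem 0))
  have hb := norm_integral_kron_le hM0 hΛc hVc hΛp (fun θ => hM _ (hgmem θ)) hΛm
    (Matrix.of fun i j : Fin n × Fin m => Polynomial.aeval At (q i.2 j.2) i.1 j.1)
    (fun i j => hform i.1 j.1 i.2 j.2)
  -- the conjugation
  have hconj : (Matrix.of fun i j : Fin n × Fin m => Polynomial.aeval A (q i.2 j.2) i.1 j.1) =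
      (Si ⊗ₖ (1 : Matrix (Fin m) (Fin m) ℂ)) *
        (Matrix.of fun i j : Fin n × Fin m => Polynomial.aeval At (q i.2 j.2) i.1 j.1) *
        (S ⊗ₖ (1 : Matrix (Fin m) (Fin m) ℂ)) := by
    rw [kron_conj_apply Si S (fun c d => Polynomial.aeval At (q c d))]
    ext i j
    simp only [Matrix.of_apply]
    have h1 : Polynomial.aeval At (q i.2 j.2) = S * Polynomial.aeval A (q i.2 j.2) * Si :=
      aeval_conj S Si A hSi1 hSi2 _
    have h2 : Si * (S * Polynomial.aeval A (q i.2 j.2) * Si) * S = Polynomial.aeval A (q i.2 j.2) := by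
      calc Si * (S * Polynomial.aeval A (q i.2 j.2) * Si) * S
          = (Si * S) * Polynomial.aeval A (q i.2 j.2) * (Si * S) := by
            simp only [Matrix.mul_assoc]
        _ = _ := by rw [hSi1, Matrix.one_mul, Matrix.mul_one]
    rw [h1, h2]
  rw [hconj, map_mul, map_mul]
  have hn1 : ‖Matrix.toEuclideanCLM (n := Fin n × Fin m) (𝕜 := ℂ)
      (Si ⊗ₖ (1 : Matrix (Fin m) (Fin m) ℂ))‖ ≤ 1 := by
    refine norm_le_of_nsq zero_le_one fun z => ?_
    refine nsq_kron_one_le (fun w => ?_) z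
    have h1 := hlow (Si *ᵥ w)
    rw [mulVec_mulVec, hSi2, one_mulVec] at h1
    simpa using h1
  have hn2 : ‖Matrix.toEuclideanCLM (n := Fin n × Fin m) (𝕜 := ℂ)
      (S ⊗ₖ (1 : Matrix (Fin m) (Fin m) ℂ))‖ ≤ Real.sqrt κsq := by
    refine norm_le_of_nsq (Real.sqrt_nonneg _) fun z => ?_
    rw [Real.sq_sqrt hκ]
    exact nsq_kron_one_le hup z
  calc _ ≤ ‖Matrix.toEuclideanCLM (n := Fin n × Fin m) (𝕜 := ℂ)
            (Si ⊗ₖ (1 : Matrix (Fin m) (Fin m) ℂ))‖ *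
          ‖Matrix.toEuclideanCLM (n := Fin n × Fin m) (𝕜 := ℂ)
            (Matrix.of fun i j : Fin n × Fin m => Polynomial.aeval At (q i.2 j.2) i.1 j.1)‖ *
          ‖Matrix.toEuclideanCLM (n := Fin n × Fin m) (𝕜 := ℂ)
            (S ⊗ₖ (1 : Matrix (Fin m) (Fin m) ℂ))‖ :=
        (norm_mul_le _ _).trans (mul_le_mul_of_nonneg_right (norm_mul_le _ _) (norm_nonneg _))
    _ ≤ 1 * M * Real.sqrt κsq := by
        gcongr
    _ = Real.sqrt κsq * M := by ring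

end Crest.Agent.S0181
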